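import Mathlib

/-!
# Row 110: basic C⋆-algebra tools

Norm/order conversions, spectral right ideals `Sp a S`, ramps, approximate units and a Douglas
factorisation lemma.
-/

set_option autoImplicit false

open Set Filter Topology

namespace Crest.Agent.R110

variable {B : Type*} [CStarAlgebra B]

lemma nsq (x : B) : ‖x‖ ^ 2 = ‖star x * x‖ := by
  rw [sq, CStarRing.norm_star_mul_self]

lemma nsq' (x : B) : ‖x‖ ^ 2 = ‖x * star x‖ := by
  rw [sq, CStarRing.norm_self_mul_star]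

lemma le_of_sq_le {p q : ℝ} (hq : 0 ≤ q) (h : p ^ 2 ≤ q ^ 2) : p ≤ q :=
  le_trans (le_abs_self p) (by simpa [abs_of_nonneg hq] using sq_le_sq.mp h)

lemma nmul_le {x y : B} {p q : ℝ} (hx : ‖x‖ ≤ p) (hy : ‖y‖ ≤ q) : ‖x * y‖ ≤ p * q :=
  (norm_mul_le x y).trans (mul_le_mul hx hy (norm_nonneg _) ((norm_nonneg _).trans hx))

lemma nmul_le_r {x : B} (y : B) (hx : ‖x‖ ≤ 1) : ‖x * y‖ ≤ ‖y‖ := by
  simpa using nmul_le hx (le_refl ‖y‖)

lemma nmul_le_l (x : B) {y : B} (hy : ‖y‖ ≤ 1) : ‖x * y‖ ≤ ‖x‖ := by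
  simpa using nmul_le (le_refl ‖x‖) hy

lemma eq_zero_of_fix {u m : B} (h : u * m = m) (hu : ‖u‖ < 1) : m = 0 := by
  have h1 : ‖m‖ ≤ ‖u‖ * ‖m‖ := by
    calc ‖m‖ = ‖u * m‖ := by rw [h]
      _ ≤ _ := norm_mul_le _ _
  have : ‖m‖ ≤ 0 := by nlinarith [norm_nonneg m]
  exact norm_le_zero_iff.mp this

lemma sa_mul_star (x : B) : IsSelfAdjoint (x * star x) := IsSelfAdjoint.mul_star_self x

lemma sa_star_mul (x : B) : IsSelfAdjoint (star x * x) := IsSelfAdjoint.star_mul_self x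

lemma sa_one_smul (r : ℝ) : IsSelfAdjoint (r • (1 : B)) := by
  simp [IsSelfAdjoint]

lemma sa_smul (r : ℝ) {x : B} (hx : IsSelfAdjoint x) : IsSelfAdjoint (r • x) := by
  simp [IsSelfAdjoint, hx.star_eq]

lemma smul_eq_mul_r (r : ℝ) (x : B) : r • x = x * (r • (1 : B)) := by simp

lemma smul_eq_mul_l (r : ℝ) (x : B) : r • x = (r • (1 : B)) * x := by simp

/-! ### functional calculus wrappers -/

lemma cfc_sa (f : ℝ → ℝ) (a : B) : IsSelfAdjoint (cfc f a) := cfc_predicate f a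

lemma cfc_mul_eq (a : B) {f g k : ℝ → ℝ} (hf : Continuous f) (hg : Continuous g)
    (h : ∀ x, f x * g x = k x) : cfc f a * cfc g a = cfc k a := by
  rw [← cfc_mul f g a hf.continuousOn hg.continuousOn]
  congr 1; funext x; exact h x

lemma cfc_comm (a : B) {f g : ℝ → ℝ} (hf : Continuous f) (hg : Continuous g) :
    cfc f a * cfc g a = cfc g a * cfc f a := by
  rw [cfc_mul_eq a hf hg (fun _ => rfl), cfc_mul_eq a hg hf (fun x => mul_comm _ _)]

lemma mul_cfc_eq {a : B} (ha : IsSelfAdjoint a) {g k : ℝ → ℝ} (hg : Continuous g)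
    (h : ∀ x, x * g x = k x) : a * cfc g a = cfc k a := by
  have := cfc_mul_eq a continuous_id hg (k := k) h
  rwa [cfc_id ℝ a] at this

lemma cfc_mul_self_eq {a : B} (ha : IsSelfAdjoint a) {g k : ℝ → ℝ} (hg : Continuous g)
    (h : ∀ x, g x * x = k x) : cfc g a * a = cfc k a := by
  have := cfc_mul_eq a hg continuous_id (k := k) h
  rwa [cfc_id ℝ a] at this

lemma cfc_conj_eq {a : B} (ha : IsSelfAdjoint a) {g : ℝ → ℝ} (hg : Continuous g) :
    cfc g a * a * cfc g a = cfc (fun t => g t * t * g t) a := by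
  rw [cfc_mul_self_eq ha hg (fun _ => rfl),
    cfc_mul_eq a (f := fun t => g t * t) (by fun_prop) hg (fun _ => rfl)]

lemma cfc_sub_eq (a : B) {f g k : ℝ → ℝ} (hf : Continuous f) (hg : Continuous g)
    (h : ∀ x, f x - g x = k x) : cfc f a - cfc g a = cfc k a := by
  rw [← cfc_sub f g a hf.continuousOn hg.continuousOn]
  congr 1; funext x; exact h x

lemma cfc_one' {a : B} (ha : IsSelfAdjoint a) : cfc (fun _ : ℝ => (1 : ℝ)) a = 1 :=
  cfc_const_one ℝ a

lemma one_sub_cfc {a : B} (ha : IsSelfAdjoint a) {g k : ℝ → ℝ} (hg : Continuous g)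
    (h : ∀ x, 1 - g x = k x) : 1 - cfc g a = cfc k a := by
  rw [← cfc_one' ha]; exact cfc_sub_eq a continuous_const hg h

lemma cfc_const' {a : B} (ha : IsSelfAdjoint a) (r : ℝ) : cfc (fun _ : ℝ => r) a = r • (1 : B) := by
  rw [cfc_const r a, Algebra.algebraMap_eq_smul_one]

lemma smul_cfc_eq (a : B) (r : ℝ) {g k : ℝ → ℝ} (hg : Continuous g)
    (h : ∀ x, r * g x = k x) : r • cfc g a = cfc k a := by
  rw [← cfc_const_mul r g a hg.continuousOn]
  congr 1; funext x; exact h x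

lemma norm_cfc_le' (a : B) {f : ℝ → ℝ} {c : ℝ} (hc : 0 ≤ c) (h : ∀ x, |f x| ≤ c) :
    ‖cfc f a‖ ≤ c :=
  norm_cfc_le hc (fun x _ => h x)

/-! ### order -/

section Order

variable [PartialOrder B] [StarOrderedRing B]

lemma conj_le {a b : B} (h : a ≤ b) (T : B) : star T * a * T ≤ star T * b * T :=
  star_left_conjugate_le_conjugate h T

lemma conj_le' {a b : B} (h : a ≤ b) (T : B) : T * a * star T ≤ T * b * star T :=
  star_right_conjugate_le_conjugate h T

lemma norm_le_of_le {a : B} {r : ℝ} (ha : 0 ≤ a) (hr : 0 ≤ r) (h : a ≤ r • (1 : B)) : ‖a‖ ≤ r := by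
  rw [CStarAlgebra.norm_le_iff_le_algebraMap a hr ha, Algebra.algebraMap_eq_smul_one]
  exact h

lemma one_smul_mono {r s : ℝ} (h : r ≤ s) : r • (1 : B) ≤ s • (1 : B) :=
  smul_le_smul_of_nonneg_right h zero_le_one

lemma le_of_norm_le {a : B} {r : ℝ} (ha : IsSelfAdjoint a) (h : ‖a‖ ≤ r) : a ≤ r • (1 : B) := by
  have := ha.le_algebraMap_norm_self
  rw [Algebra.algebraMap_eq_smul_one] at this
  exact this.trans (one_smul_mono h)

lemma le_add_of_norm_sub {a b : B} {r : ℝ} (ha : IsSelfAdjoint a) (hb : IsSelfAdjoint b)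
    (h : ‖a - b‖ ≤ r) : a ≤ b + r • (1 : B) := by
  have := le_of_norm_le (ha.sub hb) h
  rwa [sub_le_iff_le_add'] at this

lemma norm_mono {a b : B} (ha : 0 ≤ a) (h : a ≤ b) : ‖a‖ ≤ ‖b‖ :=
  CStarAlgebra.norm_le_norm_of_nonneg_of_le ha h

/-- `x⋆x ≤ h` gives `‖xT‖² ≤ ‖T⋆hT‖`. -/
lemma nsq_mul_le {x h : B} (hx : star x * x ≤ h) (T : B) : ‖x * T‖ ^ 2 ≤ ‖star T * h * T‖ := by
  rw [nsq]
  refine norm_mono (star_mul_self_nonneg _) ?_
  have := conj_le hx T
  simpa [mul_assoc] using this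

/-- `g g⋆ ≤ h` gives `‖g⋆T‖² ≤ ‖T⋆hT‖`. -/
lemma nsq_star_mul_le {g h : B} (hg : g * star g ≤ h) (T : B) :
    ‖star g * T‖ ^ 2 ≤ ‖star T * h * T‖ :=
  nsq_mul_le (by simpa using hg) T

lemma norm_mul_le_of_le {x y : B} (h : star x * x ≤ star y * y) (T : B) : ‖x * T‖ ≤ ‖y * T‖ := by
  refine le_of_sq_le (norm_nonneg _) ((nsq_mul_le h T).trans (le_of_eq ?_))
  rw [nsq]; simp [mul_assoc]

/-- `g g⋆ ≤ M • x x⋆` gives `‖g⋆T‖² ≤ M ‖x⋆T‖²`. -/
lemma nsq_star_mul_le_smul {g x : B} {M : ℝ} (hM : 0 ≤ M) (hg : g * star g ≤ M • (x * star x))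
    (T : B) : ‖star g * T‖ ^ 2 ≤ M * ‖star x * T‖ ^ 2 := by
  refine (nsq_star_mul_le hg T).trans (le_of_eq ?_)
  rw [nsq (star x * T)]
  have : star T * (M • (x * star x)) * T = M • (star (star x * T) * (star x * T)) := by
    simp [mul_assoc]
  rw [this, norm_smul, Real.norm_of_nonneg hM]

/-- `δ ≤ K` gives `δ ‖T‖² ≤ ‖T⋆KT‖`. -/
lemma mul_nsq_le {K : B} {δ : ℝ} (hδ : 0 ≤ δ) (h : δ • (1 : B) ≤ K) (T : B) :
    δ * ‖T‖ ^ 2 ≤ ‖star T * K * T‖ := by
  have h1 : star T * (δ • (1 : B)) * T = δ • (star T * T) := by simp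
  have h2 := conj_le h T
  rw [h1] at h2
  have := norm_mono (smul_nonneg hδ (star_mul_self_nonneg T)) h2
  rwa [norm_smul, Real.norm_of_nonneg hδ, ← nsq] at this

lemma star_mul_le_one {x : B} (hx : ‖x‖ ≤ 1) : star x * x ≤ 1 := by
  have := le_of_norm_le (sa_star_mul x) (r := 1) (by rw [← nsq]; nlinarith [norm_nonneg x])
  simpa using this

lemma mul_star_le_one {x : B} (hx : ‖x‖ ≤ 1) : x * star x ≤ 1 := by
  have := star_mul_le_one (x := star x) (by simpa using hx)
  simpa using this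

lemma norm_le_one_of_le {x : B} (hx : star x * x ≤ 1) : ‖x‖ ≤ 1 := by
  refine le_of_sq_le zero_le_one ?_
  rw [nsq]
  simpa using norm_le_of_le (star_mul_self_nonneg x) zero_le_one (by simpa using hx)

lemma norm_le_one_of_mem {e : B} (h0 : 0 ≤ e) (h1 : e ≤ 1) : ‖e‖ ≤ 1 :=
  norm_le_of_le h0 zero_le_one (by simpa using h1)

lemma norm_one_sub_le {e : B} (h0 : 0 ≤ e) (h1 : e ≤ 1) : ‖1 - e‖ ≤ 1 :=
  norm_le_one_of_mem (sub_nonneg.mpr h1) (by simpa using h0)

lemma cfc_le' {a : B} (ha : IsSelfAdjoint a) {f g : ℝ → ℝ} (hf : Continuous f)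
    (hg : Continuous g) (h : ∀ x, f x ≤ g x) : cfc f a ≤ cfc g a :=
  (cfc_le_iff f g a hf.continuousOn hg.continuousOn ha).mpr fun x _ => h x

lemma cfc_le_pos {a : B} (ha : 0 ≤ a) {f g : ℝ → ℝ} (hf : Continuous f)
    (hg : Continuous g) (h : ∀ x, 0 ≤ x → f x ≤ g x) : cfc f a ≤ cfc g a :=
  (cfc_le_iff f g a hf.continuousOn hg.continuousOn (IsSelfAdjoint.of_nonneg ha)).mpr
    fun x hx => h x (spectrum_nonneg_of_nonneg ha hx)

lemma norm_cfc_le_pos {a : B} (ha : 0 ≤ a) {f : ℝ → ℝ} {c : ℝ} (hc : 0 ≤ c)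
    (h : ∀ x, 0 ≤ x → |f x| ≤ c) : ‖cfc f a‖ ≤ c :=
  norm_cfc_le hc (fun x hx => h x (spectrum_nonneg_of_nonneg ha hx))

lemma cfc_congr_pos {a : B} (ha : 0 ≤ a) {f g : ℝ → ℝ} (h : ∀ x, 0 ≤ x → f x = g x) :
    cfc f a = cfc g a :=
  cfc_congr fun x hx => h x (spectrum_nonneg_of_nonneg ha hx)

lemma cfc_nonneg' (a : B) {f : ℝ → ℝ} (h : ∀ x, 0 ≤ f x) : 0 ≤ cfc f a :=
  cfc_nonneg fun x _ => h x

lemma cfc_le_one' (a : B) {f : ℝ → ℝ} (h : ∀ x, f x ≤ 1) : cfc f a ≤ 1 :=
  cfc_le_one f a fun x _ => h x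

lemma cfc_eq_one_of_le {K : B} (hK : IsSelfAdjoint K) {τ : ℝ} (h : τ • (1 : B) ≤ K) {f : ℝ → ℝ}
    (hf : ∀ x, τ ≤ x → f x = 1) : cfc f K = 1 := by
  rw [← cfc_one' hK]
  refine cfc_congr fun x hx => hf x ?_
  rw [← Algebra.algebraMap_eq_smul_one] at h
  exact (algebraMap_le_iff_le_spectrum hK).mp h x hx

lemma add_star_mul_le (x y : B) :
    star (x + y) * (x + y) ≤ (2 : ℝ) • (star x * x) + (2 : ℝ) • (star y * y) := by
  have h := star_mul_self_nonneg (x - y)
  rw [← sub_nonneg]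
  have : (2 : ℝ) • (star x * x) + (2 : ℝ) • (star y * y) - star (x + y) * (x + y)
      = star (x - y) * (x - y) := by
    simp only [two_smul, star_add, star_sub]; noncomm_ring
  rwa [this]

/-- Approximate unit attached to a positive element. -/
lemma exists_au {h : B} (hh : 0 ≤ h) {η : ℝ} (hη : 0 < η) :
    ∃ d : B, 0 ≤ h * d ∧ h * d ≤ 1 ∧ ∀ g : B, g * star g ≤ h → ‖g - h * d * g‖ ≤ η := by
  have hsa := IsSelfAdjoint.of_nonneg hh
  have hpos : ∀ x : ℝ, 0 < |x| + η ^ 2 := fun x => by positivity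
  have hc : Continuous fun x : ℝ => 1 / (|x| + η ^ 2) :=
    continuous_const.div (by fun_prop) fun x => (hpos x).ne'
  have hc2 : Continuous fun x : ℝ => x / (|x| + η ^ 2) :=
    continuous_id.div (by fun_prop) fun x => (hpos x).ne'
  refine ⟨cfc (fun x : ℝ => 1 / (|x| + η ^ 2)) h, ?_⟩
  have he : h * cfc (fun x : ℝ => 1 / (|x| + η ^ 2)) h = cfc (fun x : ℝ => x / (|x| + η ^ 2)) h :=
    mul_cfc_eq hsa hc fun x => by ring
  rw [he]
  refine ⟨cfc_nonneg fun x hx => div_nonneg (spectrum_nonneg_of_nonneg hh hx) (hpos x).le,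
    cfc_le_one' _ fun x => ?_, fun g hg => ?_⟩
  · rw [div_le_one (hpos x)]; nlinarith [le_abs_self x, sq_nonneg η]
  · set D := cfc (fun x : ℝ => 1 - x / (|x| + η ^ 2)) h with hD
    have hD1 : 1 - cfc (fun x : ℝ => x / (|x| + η ^ 2)) h = D := one_sub_cfc hsa hc2 fun _ => rfl
    have hDsa : star D = D := (cfc_sa _ _).star_eq
    have e1 : g - cfc (fun x : ℝ => x / (|x| + η ^ 2)) h * g = star (star g * D) := by
      rw [star_mul, star_star, hDsa, ← hD1]; noncomm_ring
    rw [e1, norm_star]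
    refine le_of_sq_le hη.le ((nsq_star_mul_le hg D).trans ?_)
    have hc3 : Continuous fun x : ℝ => 1 - x / (|x| + η ^ 2) := continuous_const.sub hc2
    rw [hDsa, hD, cfc_conj_eq hsa hc3]
    refine norm_cfc_le_pos hh (sq_nonneg _) fun x hx => ?_
    rw [abs_of_nonneg hx]
    have hp : 0 < x + η ^ 2 := by positivity
    have : (1 - x / (x + η ^ 2)) = η ^ 2 / (x + η ^ 2) := by field_simp; ring
    simp only [this]
    rw [abs_of_nonneg (by positivity)]
    have h1 : η ^ 2 / (x + η ^ 2) ≤ 1 := by rw [div_le_one hp]; linarith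
    have h2 : η ^ 2 / (x + η ^ 2) * x ≤ η ^ 2 := by
      rw [div_mul_eq_mul_div, div_le_iff₀ hp]; nlinarith [sq_nonneg η, sq_nonneg (η ^ 2)]
    calc η ^ 2 / (x + η ^ 2) * x * (η ^ 2 / (x + η ^ 2)) ≤ η ^ 2 * 1 :=
          mul_le_mul h2 h1 (by positivity) (sq_nonneg _)
      _ = η ^ 2 := mul_one _

end Order

/-! ### closed right ideals and spectral right ideals -/

/-- closed right ideal -/
structure CRI (R : Set B) : Prop where
  zero_mem : (0 : B) ∈ R
  add_mem : ∀ {x y : B}, x ∈ R → y ∈ R → x + y ∈ R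
  mul_mem : ∀ {x : B} (b : B), x ∈ R → x * b ∈ R
  isClosed : IsClosed R

lemma CRI.smul_mem {R : Set B} (hR : CRI R) (r : ℝ) {x : B} (hx : x ∈ R) : r • x ∈ R := by
  rw [smul_eq_mul_r]; exact hR.mul_mem _ hx

lemma CRI.sub_mem {R : Set B} (hR : CRI R) {x y : B} (hx : x ∈ R) (hy : y ∈ R) : x - y ∈ R := by
  have := hR.add_mem hx (hR.mul_mem (-1) hy)
  simpa [sub_eq_add_neg] using this

lemma CRI.inter {R S : Set B} (hR : CRI R) (hS : CRI S) : CRI (R ∩ S) :=
  ⟨⟨hR.zero_mem, hS.zero_mem⟩, fun hx hy => ⟨hR.add_mem hx.1 hy.1, hS.add_mem hx.2 hy.2⟩,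
    fun b hx => ⟨hR.mul_mem b hx.1, hS.mul_mem b hx.2⟩, hR.isClosed.inter hS.isClosed⟩

lemma cri_fix (q : B) : CRI {y : B | q * y = y} :=
  ⟨by simp, fun hx hy => by
      simp only [mem_ofPred_eq] at *; rw [mul_add, hx, hy],
    fun b hx => by simp only [mem_ofPred_eq] at *; rw [← mul_assoc, hx],
    isClosed_eq (by fun_prop) (by fun_prop)⟩

/-- elements whose range lies in the spectral region `S` of `a` -/
def Sp (a : B) (S : Set ℝ) : Set B :=
  {x | ∀ f : ℝ → ℝ, Continuous f → (∀ t ∈ S, f t = 0) → cfc f a * x = 0}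

lemma cri_Sp (a : B) (S : Set ℝ) : CRI (Sp a S) := by
  refine ⟨fun f _ _ => by simp, fun hx hy f hf h => by rw [mul_add, hx f hf h, hy f hf h, add_zero],
    fun b hx f hf h => by rw [← mul_assoc, hx f hf h, zero_mul], ?_⟩
  have : Sp a S = ⋂ (f : ℝ → ℝ) (_ : Continuous f) (_ : ∀ t ∈ S, f t = 0),
      {x : B | cfc f a * x = 0} := by
    ext x; simp [Sp]
  rw [this]
  exact isClosed_iInter fun f => isClosed_iInter fun _ => isClosed_iInter fun _ =>
    isClosed_eq (by fun_prop) (by fun_prop)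

lemma Sp_mono (a : B) {S T : Set ℝ} (h : S ⊆ T) : Sp a S ⊆ Sp a T :=
  fun _ hx f hf h' => hx f hf fun t ht => h' t (h ht)

lemma Sp_Ici_mono (a : B) {s t : ℝ} (h : s ≤ t) {x : B} (hx : x ∈ Sp a (Ici t)) :
    x ∈ Sp a (Ici s) := Sp_mono a (Ici_subset_Ici.mpr h) hx

lemma Sp_congr {a x : B} {S : Set ℝ} (hx : x ∈ Sp a S) {f g : ℝ → ℝ} (hf : Continuous f)
    (hg : Continuous g) (h : ∀ t ∈ S, f t = g t) : cfc f a * x = cfc g a * x := by
  have := hx (fun t => f t - g t) (hf.sub hg) fun t ht => by simp [h t ht]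
  rw [← cfc_sub_eq a hf hg (fun _ => rfl), sub_mul] at this
  exact sub_eq_zero.mp this

lemma Sp_fix {a x : B} (ha : IsSelfAdjoint a) {S : Set ℝ} (hx : x ∈ Sp a S) {f : ℝ → ℝ}
    (hf : Continuous f) (h : ∀ t ∈ S, f t = 1) : cfc f a * x = x := by
  rw [Sp_congr hx hf continuous_const h, cfc_one' ha, one_mul]

lemma cfc_mem_Sp (a : B) {S : Set ℝ} {g : ℝ → ℝ} (hg : Continuous g) (h : ∀ t, t ∉ S → g t = 0) :
    cfc g a ∈ Sp a S := by
  intro f hf hS
  rw [cfc_mul_eq a hf hg (k := fun _ => 0), cfc_const_zero]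
  intro t
  by_cases ht : t ∈ S
  · simp [hS t ht]
  · simp [h t ht]

lemma cfc_mul_mem_Sp {a x : B} {S : Set ℝ} (hx : x ∈ Sp a S) {g : ℝ → ℝ} (hg : Continuous g) :
    cfc g a * x ∈ Sp a S := by
  intro f hf hS
  rw [← mul_assoc, cfc_comm a hf hg, mul_assoc, hx f hf hS, mul_zero]

lemma mem_Sp_of_fix {T ξ : B} (hT : IsSelfAdjoint T) (h : T * ξ = ξ) {σ : ℝ} (hσ : σ < 1) :
    ξ ∈ Sp T (Ici σ) := by
  intro f hf hS
  have hpos : ∀ x : ℝ, 0 < max (1 - x) (1 - σ) := fun x => lt_max_of_lt_right (by linarith)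
  have hc : Continuous fun x : ℝ => f x / max (1 - x) (1 - σ) :=
    hf.div (by fun_prop) fun x => (hpos x).ne'
  have h1 : cfc (fun x : ℝ => 1 - x) T * ξ = 0 := by
    rw [← one_sub_cfc hT continuous_id (k := fun x : ℝ => 1 - x) (fun _ => rfl), cfc_id ℝ T,
      sub_mul, one_mul, h, sub_self]
  rw [← cfc_mul_eq T hc (g := fun x : ℝ => 1 - x) (by fun_prop) (k := f), mul_assoc, h1, mul_zero]
  intro x
  by_cases hx : σ ≤ x
  · simp [hS x hx]
  · have : max (1 - x) (1 - σ) = 1 - x := max_eq_left (by linarith)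
    rw [this]; field_simp [show (1 - x) ≠ 0 by linarith]

lemma Sp_Ici_eq_mul {a x : B} (ha : IsSelfAdjoint a) {s : ℝ} (hs : 0 < s)
    (hx : x ∈ Sp a (Ici s)) : ∃ y, x = a * y := by
  have hpos : ∀ t : ℝ, 0 < max t s := fun t => lt_max_of_lt_right hs
  have hc : Continuous fun t : ℝ => 1 / max t s :=
    continuous_const.div (by fun_prop) fun t => (hpos t).ne'
  refine ⟨cfc (fun t : ℝ => 1 / max t s) a * x, ?_⟩
  rw [← mul_assoc, mul_cfc_eq ha hc (fun _ => rfl), 
    Sp_fix ha hx (f := fun t : ℝ => t * (1 / max t s)) (by fun_prop)]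
  intro t ht
  have : max t s = t := max_eq_left ht
  simp only [this]
  field_simp [show t ≠ 0 by have : s ≤ t := ht; linarith]

lemma Sp_Iic_eq_mul {K x : B} (hK : IsSelfAdjoint K) {τ N : ℝ} (hτ : τ < N)
    (hx : x ∈ Sp K (Iic τ)) : ∃ y, x = (N • (1 : B) - K) * y := by
  have hpos : ∀ t : ℝ, 0 < max (N - t) (N - τ) := fun t => lt_max_of_lt_right (by linarith)
  have hc : Continuous fun t : ℝ => 1 / max (N - t) (N - τ) :=
    continuous_const.div (by fun_prop) fun t => (hpos t).ne'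
  refine ⟨cfc (fun t : ℝ => 1 / max (N - t) (N - τ)) K * x, ?_⟩
  have h1 : N • (1 : B) - K = cfc (fun t : ℝ => N - t) K := by
    rw [← cfc_const' hK N]
    have := cfc_sub_eq K (continuous_const (y := N)) continuous_id (k := fun t => N - t)
      (fun _ => rfl)
    rwa [cfc_id ℝ K] at this
  rw [h1, ← mul_assoc, cfc_mul_eq K (by fun_prop) hc (fun _ => rfl),
    Sp_fix hK hx (f := fun t : ℝ => (N - t) * (1 / max (N - t) (N - τ))) (by fun_prop)]
  intro t ht
  have ht' : t ≤ τ := ht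
  have : max (N - t) (N - τ) = N - t := max_eq_left (by linarith)
  simp only [this]
  field_simp [show N - t ≠ 0 by linarith]

lemma Sp_conj_le [PartialOrder B] [StarOrderedRing B] {K y : B} (hK : IsSelfAdjoint K) {τ : ℝ}
    (hy : y ∈ Sp K (Iic τ)) : star y * K * y ≤ τ • (star y * y) := by
  have h1 : K * y = cfc (fun t : ℝ => min t τ) K * y := by
    have := Sp_congr hy continuous_id (g := fun t : ℝ => min t τ) (by fun_prop)
      fun t ht => (min_eq_left ht).symm
    rwa [cfc_id ℝ K] at this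
  have h2 : cfc (fun t : ℝ => min t τ) K ≤ τ • (1 : B) := by
    rw [← cfc_const' hK τ]
    exact cfc_le' hK (by fun_prop) continuous_const fun t => min_le_right _ _
  have := conj_le h2 y
  rw [mul_assoc, h1, ← mul_assoc]
  simpa using this

/-! ### ramps -/

/-- `0` below `s`, `1` above `t`, affine in between -/
noncomputable def rampf (s t x : ℝ) : ℝ := max 0 (min 1 ((x - s) / (t - s)))

@[fun_prop] lemma continuous_rampf (s t : ℝ) : Continuous (rampf s t) := by
  unfold rampf; fun_prop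

lemma rampf_nonneg (s t x : ℝ) : 0 ≤ rampf s t x := le_max_left _ _

lemma rampf_le_one (s t x : ℝ) : rampf s t x ≤ 1 := max_le zero_le_one (min_le_left _ _)

lemma rampf_eq_zero {s t x : ℝ} (h : s < t) (hx : x ≤ s) : rampf s t x = 0 :=
  max_eq_left ((min_le_right _ _).trans (div_nonpos_of_nonpos_of_nonneg (by linarith) (by linarith)))

lemma rampf_eq_one {s t x : ℝ} (h : s < t) (hx : t ≤ x) : rampf s t x = 1 := by
  have : 1 ≤ (x - s) / (t - s) := by rw [le_div_iff₀ (by linarith)]; linarith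
  rw [rampf, min_eq_left this, max_eq_right zero_le_one]

/-- ramp function of an element -/
noncomputable def rp (a : B) (s t : ℝ) : B := cfc (rampf s t) a

lemma rp_sa (a : B) (s t : ℝ) : IsSelfAdjoint (rp a s t) := cfc_sa _ _

@[simp] lemma star_rp (a : B) (s t : ℝ) : star (rp a s t) = rp a s t := (rp_sa a s t).star_eq

lemma norm_rp_le (a : B) (s t : ℝ) : ‖rp a s t‖ ≤ 1 :=
  norm_cfc_le' a zero_le_one fun x => by
    rw [abs_of_nonneg (rampf_nonneg _ _ _)]; exact rampf_le_one _ _ _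

lemma rp_mem (a : B) {s t : ℝ} (h : s < t) : rp a s t ∈ Sp a (Ici s) :=
  cfc_mem_Sp a (continuous_rampf s t) fun x hx => rampf_eq_zero h (le_of_lt (by simpa using hx))

lemma rp_fix {a x : B} (ha : IsSelfAdjoint a) {s t : ℝ} (h : s < t) (hx : x ∈ Sp a (Ici t)) :
    rp a s t * x = x :=
  Sp_fix ha hx (continuous_rampf s t) fun _ hy => rampf_eq_one h hy

lemma rp_mul_rp {a : B} (ha : IsSelfAdjoint a) {s t s' t' : ℝ} (h : s < t) (h1 : t ≤ s')
    (h2 : s' < t') : rp a s t * rp a s' t' = rp a s' t' :=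
  rp_fix ha h (Sp_Ici_mono a h1 (rp_mem a h2))

section Order

variable [PartialOrder B] [StarOrderedRing B]

lemma rp_nonneg (a : B) (s t : ℝ) : 0 ≤ rp a s t := cfc_nonneg' a (rampf_nonneg s t)

lemma rp_le_one (a : B) (s t : ℝ) : rp a s t ≤ 1 := cfc_le_one' a (rampf_le_one s t)

lemma rp_sq_le_one (a : B) (s t : ℝ) : rp a s t * rp a s t ≤ 1 := by
  simpa using star_mul_le_one (norm_rp_le a s t)

/-- Douglas-type factorisation inside a closed right ideal. -/
lemma douglas {R : Set B} (hR : CRI R) {x n : B} (hx : x ∈ R) (hn : IsSelfAdjoint n)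
    (h : n * n ≤ star x * x) : ∃ y ∈ R, star y * y = n * n ∧ y * star y ≤ x * star x := by
  set q := star x * x with hq
  have hq0 : 0 ≤ q := star_mul_self_nonneg x
  have hqsa : IsSelfAdjoint q := sa_star_mul x
  have h' : star n * n ≤ q := by rwa [hn.star_eq]
  -- basic estimate
  have key : ∀ (φ : ℝ → ℝ) (c : ℝ), Continuous φ → 0 ≤ c → (∀ t, 0 ≤ t → |φ t * t * φ t| ≤ c) →
      ‖n * cfc (fun t => φ t * φ t) q * n‖ ≤ c := by
    intro φ c hφ hc hb
    have e1 : n * cfc (fun t => φ t * φ t) q * n = (n * cfc φ q) * star (n * cfc φ q) := by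
      rw [← cfc_mul_eq q hφ hφ (fun _ => rfl), star_mul, (cfc_sa φ q).star_eq, hn.star_eq]
      noncomm_ring
    rw [e1, ← nsq']
    refine (nsq_mul_le h' _).trans ?_
    rw [(cfc_sa φ q).star_eq, cfc_conj_eq hqsa hφ]
    exact norm_cfc_le_pos hq0 hc hb
  let ρ : ℕ → ℝ := fun k => 1 / ((k : ℝ) + 1)
  have hρ : ∀ k, 0 < ρ k := fun k => by positivity
  have hρ0 : Tendsto ρ atTop (𝓝 0) := tendsto_one_div_add_atTop_nhds_zero_nat
  let g : ℕ → ℝ → ℝ := fun k t => 1 / √(|t| + ρ k ^ 2)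
  have hsq : ∀ k t, 0 < √(|t| + ρ k ^ 2) := fun k t =>
    Real.sqrt_pos.mpr (by have := hρ k; positivity)
  have hg : ∀ k, Continuous (g k) := fun k =>
    continuous_const.div (by fun_prop) fun t => (hsq k t).ne'
  have hgg : ∀ k t, 0 ≤ t → g k t * g k t = 1 / (t + ρ k ^ 2) := by
    intro k t ht
    simp only [g]
    rw [div_mul_div_comm, Real.mul_self_sqrt (by positivity), abs_of_nonneg ht, one_mul]
  have hg1 : ∀ k t, 0 ≤ t → |t * g k t - √t| ≤ ρ k := by
    intro k t ht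
    have hS := hsq k t
    simp only [g]
    rw [abs_of_nonneg ht] at hS ⊢
    set S := √(t + ρ k ^ 2) with hSdef
    have hS2 : S * S = t + ρ k ^ 2 := Real.mul_self_sqrt (by positivity)
    have hs2 : √t * √t = t := Real.mul_self_sqrt ht
    have hs0 : 0 ≤ √t := Real.sqrt_nonneg t
    have h1 : √t ≤ S := Real.sqrt_le_sqrt (by nlinarith [sq_nonneg (ρ k)])
    have h2 : S ≤ √t + ρ k := by
      rw [hSdef]
      refine Real.sqrt_le_iff.mpr ⟨by have := hρ k; positivity, ?_⟩
      nlinarith [hρ k]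
    have e : t * (1 / S) - √t = -(√t / S * (S - √t)) := by
      field_simp; nlinarith
    rw [e, abs_neg, abs_of_nonneg (mul_nonneg (div_nonneg hs0 hS.le) (by linarith))]
    have h3 : √t / S ≤ 1 := (div_le_one hS).mpr h1
    nlinarith [div_nonneg hs0 hS.le]
  let y : ℕ → B := fun k => x * cfc (g k) q * n
  have hyR : ∀ k, y k ∈ R := fun k => hR.mul_mem _ (hR.mul_mem _ hx)
  have hcauchy : CauchySeq y := by
    refine cauchySeq_of_le_tendsto_0 (fun N => 2 * ρ N) (fun k l N hk hl => ?_)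
      (by simpa using hρ0.const_mul 2)
    have hc : Continuous fun t => g k t - g l t := (hg k).sub (hg l)
    have e1 : y k - y l = x * cfc (fun t => g k t - g l t) q * n := by
      rw [← cfc_sub_eq q (hg k) (hg l) (fun _ => rfl)]; simp only [y]; noncomm_ring
    have hρk : ρ k ≤ ρ N := one_div_le_one_div_of_le (by positivity)
      (by have : (N : ℝ) ≤ k := by exact_mod_cast hk
          linarith)
    have hρl : ρ l ≤ ρ N := one_div_le_one_div_of_le (by positivity)
      (by have : (N : ℝ) ≤ l := by exact_mod_cast hl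
          linarith)
    rw [dist_eq_norm, e1]
    refine le_of_sq_le (by have := hρ N; positivity) ?_
    rw [nsq]
    have e2 : star (x * cfc (fun t => g k t - g l t) q * n) * (x * cfc (fun t => g k t - g l t) q * n)
        = n * cfc (fun t => (√t * (g k t - g l t)) * (√t * (g k t - g l t))) q * n := by
      have : cfc (fun t => (√t * (g k t - g l t)) * (√t * (g k t - g l t))) q
          = cfc (fun t => g k t - g l t) q * q * cfc (fun t => g k t - g l t) q := by
        rw [cfc_conj_eq hqsa hc]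
        refine cfc_congr_pos hq0 fun t ht => ?_
        have hs2 : √t * √t = t := Real.mul_self_sqrt ht
        calc √t * (g k t - g l t) * (√t * (g k t - g l t))
            = (√t * √t) * ((g k t - g l t) * (g k t - g l t)) := by ring
          _ = _ := by rw [hs2]; ring
      rw [this, star_mul, star_mul, (cfc_sa _ q).star_eq, hn.star_eq, hq]
      noncomm_ring
    rw [e2]
    refine key _ _ (by fun_prop) (sq_nonneg _) fun t ht => ?_
    have hs2 : √t * √t = t := Real.mul_self_sqrt ht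
    have e3 : √t * (g k t - g l t) * t * (√t * (g k t - g l t))
        = ((t * g k t - √t) - (t * g l t - √t)) ^ 2 := by
      calc √t * (g k t - g l t) * t * (√t * (g k t - g l t))
          = (√t * √t) * t * ((g k t - g l t) * (g k t - g l t)) := by ring
        _ = _ := by rw [hs2]; ring
    rw [e3, abs_of_nonneg (sq_nonneg _)]
    have b1 := abs_le.mp (hg1 k t ht)
    have b2 := abs_le.mp (hg1 l t ht)
    exact sq_le_sq' (by linarith) (by linarith)
  obtain ⟨z, hz⟩ := cauchySeq_tendsto_of_complete hcauchy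
  have hgq : ∀ k, cfc (g k) q * q * cfc (g k) q = cfc (fun t => g k t * t * g k t) q := fun k =>
    cfc_conj_eq hqsa (hg k)
  refine ⟨z, hR.isClosed.mem_of_tendsto hz (Eventually.of_forall hyR), ?_, ?_⟩
  · have t1 : Tendsto (fun k => star (y k) * y k) atTop (𝓝 (star z * z)) := hz.star.mul hz
    have t2 : Tendsto (fun k => star (y k) * y k) atTop (𝓝 (n * n)) := by
      rw [tendsto_iff_norm_sub_tendsto_zero]
      refine squeeze_zero (fun _ => norm_nonneg _) (g := fun k => ρ k ^ 2) (fun k => ?_)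
        (by simpa using hρ0.pow 2)
      have e1 : star (y k) * y k - n * n
          = -(n * cfc (fun t => (ρ k * g k t) * (ρ k * g k t)) q * n) := by
        have : cfc (fun t => (ρ k * g k t) * (ρ k * g k t)) q
            = 1 - cfc (g k) q * q * cfc (g k) q := by
          rw [hgq, one_sub_cfc hqsa (by have := hg k; fun_prop) (fun _ => rfl)]
          refine cfc_congr_pos hq0 fun t ht => ?_
          have h1 := hgg k t ht
          have hp : 0 < t + ρ k ^ 2 := by have := hρ k; positivity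
          calc ρ k * g k t * (ρ k * g k t) = ρ k ^ 2 * (g k t * g k t) := by ring
            _ = 1 - t * (g k t * g k t) := by rw [h1]; field_simp; ring
            _ = _ := by ring
        rw [this]
        simp only [y]
        rw [star_mul, star_mul, (cfc_sa _ q).star_eq, hn.star_eq, hq]
        noncomm_ring
      rw [e1, norm_neg]
      refine key _ _ (by have := hg k; fun_prop) (sq_nonneg _) fun t ht => ?_
      have h1 := hgg k t ht
      have hp : 0 < t + ρ k ^ 2 := by have := hρ k; positivity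
      have e3 : ρ k * g k t * t * (ρ k * g k t) = ρ k ^ 2 * (t / (t + ρ k ^ 2)) := by
        calc ρ k * g k t * t * (ρ k * g k t) = ρ k ^ 2 * t * (g k t * g k t) := by ring
          _ = _ := by rw [h1]; ring
      rw [e3, abs_of_nonneg (by positivity)]
      have : t / (t + ρ k ^ 2) ≤ 1 := by rw [div_le_one hp]; nlinarith [sq_nonneg (ρ k)]
      nlinarith [sq_nonneg (ρ k)]
    exact tendsto_nhds_unique t1 t2
  · have t1 : Tendsto (fun k => y k * star (y k)) atTop (𝓝 (z * star z)) := hz.mul hz.star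
    refine le_of_tendsto' t1 fun k => ?_
    have e1 : y k * star (y k) = (x * cfc (g k) q) * (n * n) * star (x * cfc (g k) q) := by
      simp only [y]; rw [star_mul (x * cfc (g k) q) n, hn.star_eq]; noncomm_ring
    have e2 : (x * cfc (g k) q) * q * star (x * cfc (g k) q)
        = x * (cfc (g k) q * q * cfc (g k) q) * star x := by
      rw [star_mul, (cfc_sa _ q).star_eq]; noncomm_ring
    have h3 : cfc (g k) q * q * cfc (g k) q ≤ 1 := by
      rw [hgq]
      refine cfc_le_one _ _ fun t ht => ?_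
      have ht := spectrum_nonneg_of_nonneg hq0 ht
      have h1 := hgg k t ht
      have hp : 0 < t + ρ k ^ 2 := by have := hρ k; positivity
      calc g k t * t * g k t = t * (g k t * g k t) := by ring
        _ = t / (t + ρ k ^ 2) := by rw [h1]; ring
        _ ≤ 1 := by rw [div_le_one hp]; nlinarith [sq_nonneg (ρ k)]
    rw [e1]
    refine (conj_le' h _).trans ?_
    rw [e2]
    simpa using conj_le' h3 x

/-- scaled version of `douglas` -/
lemma douglas_smul {R : Set B} (hR : CRI R) {x n : B} (hx : x ∈ R) (hn : IsSelfAdjoint n)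
    {M : ℝ} (hM : 0 ≤ M) (h : n * n ≤ M • (star x * x)) :
    ∃ y ∈ R, star y * y = n * n ∧ y * star y ≤ M • (x * star x) := by
  have hs : √M * √M = M := Real.mul_self_sqrt hM
  have e1 : star (√M • x) * (√M • x) = M • (star x * x) := by
    simp [smul_smul, hs]
  have e2 : (√M • x) * star (√M • x) = M • (x * star x) := by
    simp [smul_smul, hs]
  obtain ⟨y, hy, h1, h2⟩ := douglas hR (hR.smul_mem √M hx) hn (by rwa [e1])
  exact ⟨y, hy, h1, by rwa [e2] at h2⟩

end Order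

end Crest.Agent.R110
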