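import Crest.Agent.R110.Quot

/-!
# Row 110: quasi-central approximate units
-/

set_option autoImplicit false

open Set Filter Topology

namespace Crest.Agent.R110

variable {B : Type*} [CStarAlgebra B] [PartialOrder B] [StarOrderedRing B]

omit [PartialOrder B] [StarOrderedRing B] in
lemma nsq_add_le (A T : B) : ‖A + T‖ ^ 2 ≤ ‖A‖ ^ 2 + ‖T‖ ^ 2 + 2 * ‖star T * A‖ := by
  rw [nsq, nsq, nsq]
  have : star (A + T) * (A + T) = star A * A + star T * T + star T * A + star (star T * A) := by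
    simp only [star_add, star_mul, star_star]; noncomm_ring
  rw [this]
  have h1 := norm_add_le (star A * A + star T * T + star T * A) (star (star T * A))
  have h2 := norm_add_le (star A * A + star T * T) (star T * A)
  have h3 := norm_add_le (star A * A) (star T * T)
  rw [norm_star] at h1
  linarith

lemma CI.qc_aux (J : CI B) (F G : List B) (hF : ∀ f ∈ F, ‖f‖ ≤ 1) (hG : ∀ g ∈ G, g ∈ J) {ε : ℝ}
    (hε : 0 < ε) (n : ℕ) : ∃ S ∈ J, ∃ A : B → B, (∀ f, A f ∈ J) ∧ 0 ≤ S ∧ S ≤ (n : ℝ) • (1 : B) ∧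
      (∀ g ∈ G, ‖(n : ℝ) • g - S * g‖ ≤ n * ε) ∧
      (∀ f, S * f - f * S = star (A (star f)) - A f) ∧ ∀ f ∈ F, ‖A f‖ ^ 2 ≤ 2 * n := by
  induction n with
  | zero => exact ⟨0, J.zero_mem, fun _ => 0, fun _ => J.zero_mem, le_rfl, by simp, by simp,
      by simp, by simp⟩
  | succ n ih =>
    obtain ⟨S, hS, A, hA, h0, h1, h2, h3, h4⟩ := ih
    obtain ⟨e, he, e0, e1, e2⟩ := J.exists_unit (G ++ F.map A) (by
      intro g hg
      rcases List.mem_append.mp hg with hg | hg
      · exact hG g hg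
      · obtain ⟨f, -, rfl⟩ := List.mem_map.mp hg
        exact hA f) (η := min ε (1 / 2)) (by positivity)
    have esa : star e = e := (IsSelfAdjoint.of_nonneg e0).star_eq
    have ne : ‖e‖ ≤ 1 := norm_le_one_of_mem e0 e1
    have ne' : ‖1 - e‖ ≤ 1 := norm_one_sub_le e0 e1
    refine ⟨S + e, J.add_mem hS he, fun f => A f + (1 - e) * f * e,
      fun f => J.add_mem (hA f) (J.mul_left _ he), add_nonneg h0 e0, ?_, fun g hg => ?_,
      fun f => ?_, fun f hf => ?_⟩
    · push_cast; rw [add_smul, one_smul]; exact add_le_add h1 e1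
    · push_cast
      have : ((n : ℝ) + 1) • g - (S + e) * g = ((n : ℝ) • g - S * g) + (g - e * g) := by
        rw [add_smul, one_smul]; noncomm_ring
      rw [this]
      have := e2 g (List.mem_append_left _ hg)
      have := h2 g hg
      have := norm_add_le ((n : ℝ) • g - S * g) (g - e * g)
      have := min_le_left ε (1 / 2)
      linarith
    · have : (S + e) * f - f * (S + e) = (S * f - f * S) + (e * f - f * e) := by noncomm_ring
      rw [this, h3 f]
      simp only [star_add, star_mul, star_star, star_sub, star_one, esa]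
      noncomm_ring
    · have k1 := nsq_add_le (A f) ((1 - e) * f * e)
      have k2 : ‖(1 - e) * f * e‖ ≤ 1 := (nmul_le_l _ ne).trans ((nmul_le_r _ ne').trans (hF f hf))
      have k3 : ‖star ((1 - e) * f * e) * A f‖ ≤ 1 / 2 := by
        have : star ((1 - e) * f * e) * A f = e * (star f * (A f - e * A f)) := by
          simp only [star_mul, star_sub, star_one, esa]; noncomm_ring
        rw [this]
        refine (nmul_le_r _ ne).trans ((nmul_le_r _ (by simpa using hF f hf)).trans ?_)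
        exact (e2 _ (List.mem_append_right _ (List.mem_map_of_mem hf))).trans (min_le_right _ _)
      have k4 := h4 f hf
      push_cast
      nlinarith [norm_nonneg ((1 - e) * f * e)]

/-- quasi-central approximate unit -/
lemma CI.exists_qc (J : CI B) (F G : List B) (hF : ∀ f ∈ F, ‖f‖ ≤ 1) (hG : ∀ g ∈ G, g ∈ J) {ε : ℝ}
    (hε : 0 < ε) : ∃ i ∈ J, 0 ≤ i ∧ i ≤ 1 ∧ (∀ f ∈ F, ‖i * f - f * i‖ ≤ ε) ∧
      ∀ g ∈ G, ‖g - i * g‖ ≤ ε := by
  obtain ⟨n, hn⟩ := exists_nat_gt (8 / ε ^ 2)
  have hn0 : (0 : ℝ) < n := lt_trans (by positivity) hn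
  have hn1 : 8 ≤ n * ε ^ 2 := by rw [div_lt_iff₀ (by positivity)] at hn; exact hn.le
  obtain ⟨S, hS, A, hA, h0, h1, h2, h3, h4⟩ := J.qc_aux (F ++ F.map star) G (by
    intro f hf
    rcases List.mem_append.mp hf with hf | hf
    · exact hF f hf
    · obtain ⟨f, hf', rfl⟩ := List.mem_map.mp hf
      simpa using hF f hf') hG hε n
  have hinv : (0 : ℝ) ≤ (n : ℝ)⁻¹ := by positivity
  have hb : ∀ f ∈ F ++ F.map star, ‖A f‖ ≤ n * ε / 2 := fun f hf =>
    le_of_sq_le (by positivity) ((h4 f hf).trans (by nlinarith))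
  refine ⟨(n : ℝ)⁻¹ • S, J.smul_mem _ hS, smul_nonneg hinv h0, ?_, fun f hf => ?_, fun g hg => ?_⟩
  · have := smul_le_smul_of_nonneg_left h1 hinv
    rwa [smul_smul, inv_mul_cancel₀ hn0.ne', one_smul] at this
  · rw [smul_mul_assoc, mul_smul_comm, ← smul_sub, h3, norm_smul, Real.norm_of_nonneg hinv,
      inv_mul_le_iff₀ hn0]
    have k1 := hb f (List.mem_append_left _ hf)
    have k2 := hb (star f) (List.mem_append_right _ (List.mem_map_of_mem hf))
    have := norm_sub_le (star (A (star f))) (A f)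
    rw [norm_star] at this
    linarith
  · have : g - (n : ℝ)⁻¹ • S * g = (n : ℝ)⁻¹ • ((n : ℝ) • g - S * g) := by
      rw [smul_sub, smul_smul, inv_mul_cancel₀ hn0.ne', one_smul, smul_mul_assoc]
    rw [this, norm_smul, Real.norm_of_nonneg hinv, inv_mul_le_iff₀ hn0]
    exact h2 g hg

end Crest.Agent.R110
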