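import Crest.Agent.R110.Basic

/-!
# Row 110: closed two-sided ideals and quotient C⋆-algebras
-/

set_option autoImplicit false

open Set Filter Topology

namespace Crest.Agent.R110

/-- closed two-sided ideal of a unital C⋆-algebra -/
structure CI (B : Type*) [CStarAlgebra B] where
  carrier : Set B
  zero_mem' : (0 : B) ∈ carrier
  add_mem' : ∀ {x y : B}, x ∈ carrier → y ∈ carrier → x + y ∈ carrier
  mul_left' : ∀ (b : B) {x : B}, x ∈ carrier → b * x ∈ carrier
  mul_right' : ∀ (b : B) {x : B}, x ∈ carrier → x * b ∈ carrier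
  isClosed' : IsClosed carrier

variable {B : Type*} [CStarAlgebra B]

instance : Membership B (CI B) := ⟨fun J x => x ∈ J.carrier⟩

namespace CI

variable (J : CI B)

lemma zero_mem : (0 : B) ∈ J := J.zero_mem'
lemma add_mem {x y : B} (hx : x ∈ J) (hy : y ∈ J) : x + y ∈ J := J.add_mem' hx hy
lemma mul_left (b : B) {x : B} (hx : x ∈ J) : b * x ∈ J := J.mul_left' b hx
lemma mul_right (b : B) {x : B} (hx : x ∈ J) : x * b ∈ J := J.mul_right' b hx
lemma neg_mem {x : B} (hx : x ∈ J) : -x ∈ J := by simpa using J.mul_left (-1) hx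
lemma sub_mem {x y : B} (hx : x ∈ J) (hy : y ∈ J) : x - y ∈ J := by
  simpa [sub_eq_add_neg] using J.add_mem hx (J.neg_mem hy)
lemma smul_mem (r : ℝ) {x : B} (hx : x ∈ J) : r • x ∈ J := by
  rw [smul_eq_mul_l]; exact J.mul_left _ hx

lemma mem_of_approx {x : B} (h : ∀ ε > 0, ∃ j ∈ J, ‖x - j‖ ≤ ε) : x ∈ J := by
  have : x ∈ closure J.carrier := by
    rw [Metric.mem_closure_iff]
    intro ε hε
    obtain ⟨j, hj, h⟩ := h (ε / 2) (by positivity)
    exact ⟨j, hj, by rw [dist_eq_norm]; linarith⟩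
  rwa [J.isClosed'.closure_eq] at this

/-- approximate unit for a finite subset of `J` -/
lemma exists_unit [PartialOrder B] [StarOrderedRing B] (G : List B) (hG : ∀ g ∈ G, g ∈ J) {η : ℝ}
    (hη : 0 < η) : ∃ e ∈ J, 0 ≤ e ∧ e ≤ 1 ∧ ∀ g ∈ G, ‖g - e * g‖ ≤ η := by
  have : ∃ h ∈ J, 0 ≤ h ∧ ∀ g ∈ G, g * star g ≤ h := by
    induction G with
    | nil => exact ⟨0, J.zero_mem, le_rfl, by simp⟩
    | cons g G ih =>
      obtain ⟨h, hJ, h0, hh⟩ := ih fun g' hg' => hG g' (List.mem_cons_of_mem _ hg')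
      refine ⟨g * star g + h, J.add_mem (J.mul_right _ (hG g List.mem_cons_self)) hJ,
        add_nonneg (mul_star_self_nonneg g) h0, fun g' hg' => ?_⟩
      rcases List.mem_cons.mp hg' with rfl | hg'
      · exact le_add_of_nonneg_right h0
      · exact (hh g' hg').trans (le_add_of_nonneg_left (mul_star_self_nonneg g))
  obtain ⟨h, hJ, h0, hh⟩ := this
  obtain ⟨d, h1, h2, h3⟩ := exists_au h0 hη
  exact ⟨h * d, J.mul_right d hJ, h1, h2, fun g hg => h3 g (hh g hg)⟩

lemma star_mem {x : B} (hx : x ∈ J) : star x ∈ J := by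
  letI := CStarAlgebra.spectralOrder B
  haveI := CStarAlgebra.spectralOrderedRing B
  refine J.mem_of_approx fun ε hε => ?_
  obtain ⟨d, -, -, h3⟩ := exists_au (star_mul_self_nonneg x) hε
  exact ⟨star x * x * d * star x, J.mul_right _ (J.mul_right _ (J.mul_left _ hx)),
    h3 (star x) (by simp)⟩

/-- the underlying ideal -/
def toIdeal : Ideal B where
  carrier := J.carrier
  zero_mem' := J.zero_mem
  add_mem' := J.add_mem
  smul_mem' := fun b _ hx => J.mul_left b hx

instance : J.toIdeal.IsTwoSided := ⟨fun b hx => J.mul_right b hx⟩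

instance : IsClosed (J.toIdeal : Set B) := J.isClosed'

/-- the quotient algebra -/
def Q : Type _ := B ⧸ J.toIdeal

noncomputable instance : Ring J.Q := inferInstanceAs (Ring (B ⧸ J.toIdeal))

noncomputable instance : Algebra ℂ J.Q := inferInstanceAs (Algebra ℂ (B ⧸ J.toIdeal))

/-- the quotient map as a ring hom -/
noncomputable def qk : B →+* J.Q := Ideal.Quotient.mk J.toIdeal

lemma mk_surj : Function.Surjective J.qk := Ideal.Quotient.mk_surjective

lemma mk_eq_zero {x : B} : J.qk x = 0 ↔ x ∈ J := Ideal.Quotient.eq_zero_iff_mem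

lemma mk_eq {x y : B} : J.qk x = J.qk y ↔ x - y ∈ J := Ideal.Quotient.eq

/-- the quotient norm -/
noncomputable def qn (x : J.Q) : ℝ :=
  @norm (B ⧸ J.toIdeal) (Submodule.Quotient.normedAddCommGroup J.toIdeal).toNorm x

lemma qn_mk_le (x : B) : J.qn (J.qk x) ≤ ‖x‖ := Submodule.Quotient.norm_mk_le J.toIdeal x

lemma qn_mk_lt (x : J.Q) {ε : ℝ} (hε : 0 < ε) : ∃ b : B, J.qk b = x ∧ ‖b‖ < J.qn x + ε :=
  Submodule.Quotient.norm_mk_lt (S := J.toIdeal) x hε

lemma qn_mul_le (x y : J.Q) : J.qn (x * y) ≤ J.qn x * J.qn y :=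
  le_of_forall_pos_le_add fun ε hε => by
    have := ((Metric.nhds_basis_ball.prod_nhds Metric.nhds_basis_ball).tendsto_iff
      Metric.nhds_basis_ball).mp (continuous_mul.tendsto (J.qn x, J.qn y)) ε hε
    simp only [Set.mem_prod, Metric.mem_ball, and_imp, Prod.forall, Prod.exists] at this
    rcases this with ⟨ε₁, ε₂, ⟨h₁, h₂⟩, h⟩
    obtain ⟨⟨a, rfl, ha⟩, ⟨b, rfl, hb⟩⟩ := J.qn_mk_lt x h₁, J.qn_mk_lt y h₂
    simp only [dist, abs_sub_lt_iff] at h
    specialize h ‖a‖ ‖b‖ ⟨by linarith, by linarith [J.qn_mk_le a]⟩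
      ⟨by linarith, by linarith [J.qn_mk_le b]⟩
    calc
      _ ≤ ‖a‖ * ‖b‖ := (J.qn_mk_le (a * b)).trans (norm_mul_le a b)
      _ ≤ _ := (sub_lt_iff_lt_add'.mp h.1).le

noncomputable instance : NormedRing J.Q :=
  { (inferInstance : Ring J.Q),
    (Submodule.Quotient.normedAddCommGroup J.toIdeal : NormedAddCommGroup (B ⧸ J.toIdeal)) with
    norm_mul_le := J.qn_mul_le }

lemma norm_mk_le (x : B) : ‖J.qk x‖ ≤ ‖x‖ := J.qn_mk_le x

lemma norm_mk_lt (x : J.Q) {ε : ℝ} (hε : 0 < ε) : ∃ b : B, J.qk b = x ∧ ‖b‖ < ‖x‖ + ε :=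
  J.qn_mk_lt x hε

noncomputable instance : NormedAlgebra ℂ J.Q :=
  { (inferInstance : Algebra ℂ J.Q) with
    norm_smul_le := fun r x =>
      (Submodule.Quotient.normedSpace J.toIdeal ℂ).norm_smul_le r x }

instance : CompleteSpace J.Q := Submodule.Quotient.completeSpace J.toIdeal

noncomputable instance : Star J.Q :=
  ⟨Quotient.map' star fun x y h => by
    rw [Submodule.quotientRel_def] at h ⊢
    rw [← star_sub]
    exact J.star_mem h⟩

lemma star_mk (x : B) : star (J.qk x) = J.qk (star x) := rfl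

noncomputable instance : StarRing J.Q where
  star_involutive x := by
    obtain ⟨x, rfl⟩ := J.mk_surj x
    rw [star_mk, star_mk, star_star]
  star_mul x y := by
    obtain ⟨x, rfl⟩ := J.mk_surj x
    obtain ⟨y, rfl⟩ := J.mk_surj y
    rw [← map_mul, star_mk, star_mk, star_mk, star_mul, map_mul]
  star_add x y := by
    obtain ⟨x, rfl⟩ := J.mk_surj x
    obtain ⟨y, rfl⟩ := J.mk_surj y
    rw [← map_add, star_mk, star_mk, star_mk, star_add, map_add]

lemma mk_smul (r : ℂ) (x : B) : J.qk (r • x) = r • J.qk x := rfl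

instance : StarModule ℂ J.Q where
  star_smul r x := by
    obtain ⟨x, rfl⟩ := J.mk_surj x
    rw [← mk_smul, star_mk, star_mk, star_smul, mk_smul]

instance : CStarRing J.Q where
  norm_mul_self_le x := by
    letI := CStarAlgebra.spectralOrder B
    haveI := CStarAlgebra.spectralOrderedRing B
    obtain ⟨x, rfl⟩ := J.mk_surj x
    refine le_of_forall_pos_le_add fun ε hε => ?_
    obtain ⟨b, hb, hb'⟩ := J.norm_mk_lt (star (J.qk x) * J.qk x) (half_pos hε)
    have hj : star x * x - b ∈ J := by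
      rw [← mk_eq, hb, map_mul, star_mk]
    obtain ⟨e, heJ, h0, h1, he⟩ := J.exists_unit [star x * x - b] (by simpa using hj) (half_pos hε)
    have he' := he _ List.mem_cons_self
    have hn : ‖1 - e‖ ≤ 1 := norm_one_sub_le h0 h1
    have hsa : star (1 - e) = 1 - e := by simp [(IsSelfAdjoint.of_nonneg h0).star_eq]
    have e1 : J.qk x = J.qk (x * (1 - e)) := by
      rw [mk_eq]
      have : x - x * (1 - e) = x * e := by noncomm_ring
      rw [this]; exact J.mul_left _ heJ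
    have h2 : ‖J.qk x‖ ≤ ‖x * (1 - e)‖ := e1 ▸ J.norm_mk_le _
    have h3 : ‖x * (1 - e)‖ ^ 2 ≤ ‖b‖ + ε / 2 := by
      rw [nsq, star_mul, hsa]
      have : (1 - e) * star x * (x * (1 - e))
          = (1 - e) * b * (1 - e) + ((star x * x - b) - e * (star x * x - b)) * (1 - e) := by
        noncomm_ring
      rw [this]
      refine (norm_add_le _ _).trans (add_le_add ?_ ((nmul_le_l _ hn).trans he'))
      exact (nmul_le_l _ hn).trans (nmul_le_r _ hn)
    have h4 : ‖J.qk x‖ * ‖J.qk x‖ ≤ ‖x * (1 - e)‖ ^ 2 := by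
      rw [sq]; exact mul_self_le_mul_self (norm_nonneg _) h2
    linarith

noncomputable instance : CStarAlgebra J.Q where

noncomputable instance : PartialOrder J.Q := CStarAlgebra.spectralOrder J.Q

instance : StarOrderedRing J.Q := CStarAlgebra.spectralOrderedRing J.Q

/-- the quotient map -/
noncomputable def π : B →⋆ₐ[ℂ] J.Q :=
  { J.qk with
    commutes' := fun _ => rfl
    map_star' := fun _ => rfl }

lemma π_surj (y : J.Q) : ∃ x, J.π x = y := J.mk_surj y

lemma π_eq_zero {x : B} : J.π x = 0 ↔ x ∈ J := J.mk_eq_zero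

lemma π_eq {x y : B} : J.π x = J.π y ↔ x - y ∈ J := J.mk_eq

lemma norm_π_le (x : B) : ‖J.π x‖ ≤ ‖x‖ := J.norm_mk_le x

lemma continuous_π : Continuous J.π :=
  AddMonoidHomClass.continuous_of_bound J.π 1 fun x => by simpa using J.norm_π_le x

lemma exists_near {x : B} {r : ℝ} (h : ‖J.π x‖ < r) : ∃ j ∈ J, ‖x - j‖ < r := by
  obtain ⟨b, hb, hb'⟩ := J.norm_mk_lt (J.π x) (sub_pos.mpr h)
  refine ⟨x - b, J.mk_eq.mp hb.symm, by simpa using hb'⟩

lemma π_smul (r : ℝ) (x : B) : J.π (r • x) = r • J.π x := by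
  rw [← Complex.coe_smul, map_smul, Complex.coe_smul]

lemma π_sa {a : B} (ha : IsSelfAdjoint a) : IsSelfAdjoint (J.π a) := ha.map J.π

lemma π_cfc {a : B} (ha : IsSelfAdjoint a) {f : ℝ → ℝ} (hf : Continuous f) :
    J.π (cfc f a) = cfc f (J.π a) :=
  J.π.map_cfc f a hf.continuousOn J.continuous_π ha (J.π_sa ha)

lemma π_rp {a : B} (ha : IsSelfAdjoint a) (s t : ℝ) : J.π (rp a s t) = rp (J.π a) s t :=
  J.π_cfc ha (continuous_rampf s t)

lemma π_Sp {a x : B} (ha : IsSelfAdjoint a) {S : Set ℝ} (hx : x ∈ Sp a S) :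
    J.π x ∈ Sp (J.π a) S := by
  intro f hf hS
  rw [← J.π_cfc ha hf, ← map_mul, hx f hf hS, map_zero]

lemma π_le [PartialOrder B] [StarOrderedRing B] {a b : B} (h : a ≤ b) : J.π a ≤ J.π b :=
  OrderHomClass.mono J.π h

lemma norm_π_le_of_le {L : CI B} (h : ∀ x ∈ J, x ∈ L) (x : B) : ‖L.π x‖ ≤ ‖J.π x‖ := by
  refine le_of_forall_pos_le_add fun ε hε => ?_
  obtain ⟨j, hj, h'⟩ := J.exists_near (x := x) (lt_add_of_pos_right _ hε)
  have : L.π x = L.π (x - j) := by rw [L.π_eq]; simpa using h j hj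
  rw [this]
  exact (L.norm_π_le _).trans h'.le

lemma mem_of_le [PartialOrder B] [StarOrderedRing B] {w j : B} (hj : j ∈ J)
    (h : star w * w ≤ j) : w ∈ J := by
  have h1 := J.π_le h
  rw [J.π_eq_zero.mpr hj, map_mul, map_star] at h1
  have h2 : star (J.π w) * J.π w = 0 := le_antisymm h1 (star_mul_self_nonneg _)
  exact J.π_eq_zero.mp (CStarRing.star_mul_self_eq_zero_iff _ |>.mp h2)

end CI

end Crest.Agent.R110
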